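import Vale.Agent.P273SD.Fh

/-!
The vector field `z d/dz` of an injective holomorphic map from the punctured plane to a fibre.
-/

noncomputable section

namespace Vale.Agent.P273SE

open Set Filter Topology Vale.Agent.P273.H183 Vale.Agent.P273.H948 Vale.Agent.P273SD

variable {L : Type} {m : ℕ} {C : Fam L m} {b : Fin m → ℂ} {g : ℂ → C.X} {p : C.X}

theorem hol_ev (hC : C.IsStable) {f : C.X → ℂ} (hf : C.hol f p) :
    ContinuousAt f p ∧ ∀ᶠ q in 𝓝 p, C.hol f q := by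
  obtain ⟨U, u, v, t, hU, hm⟩ := exists_mod hC p
  obtain ⟨k, hk, ek⟩ := (hm.hol p hU f).1 hf
  refine ⟨(ContinuousAt.comp (g := k) hk.continuousAt (hm.cont hU)).congr ek.symm, ?_⟩
  filter_upwards [hm.isOpen.mem_nhds hU, (hm.cont hU).eventually hk.eventually_analyticAt,
    ek.eventually_nhds] with x h1 h2 h3
  exact (hm.hol x h1 f).2 ⟨k, h2, h3⟩

/-- The local inverse of an injective holomorphic map at a smooth point. -/
theorem loc_inv {z : ℂ} (h1 : HolF C b g z) {O : Set ℂ} (hO : O ∈ 𝓝 z) (h2 : InjOn g O)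
    (hs : Sm C (g z)) : ∃ ξ : C.X → ℂ, Tendsto ξ (𝓝 (g z)) (𝓝 z) ∧
      (∀ᶠ q in 𝓝[C.fib b] (g z), g (ξ q) = q) ∧
      (∀ κ, AnalyticAt ℂ κ z → C.hol (fun q => κ (ξ q)) (g z)) ∧
      ∃ u, C.hol u (g z) ∧ deriv (fun w => u (g w)) z ≠ 0 := by
  have : Nonempty C.X := ⟨g z⟩
  obtain ⟨U, u, v, t, hU, hm, h3⟩ := hs
  have hG : AnalyticAt ℂ (fun w => u (g w)) z := h1.an_u hm hU
  have h5 : ∀ᶠ w in 𝓝 z, Pc C U u v t b (u (g w)) = g w := by
    filter_upwards [h1.cont.eventually (ev_back hm hU h3), h1.fib] with w h7 h8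
    rwa [h8] at h7
  obtain ⟨O', a1, a2, a3⟩ := eventually_nhds_iff.1 (h5.and (hG.eventually_analyticAt.and hO))
  have hd : deriv (fun w => u (g w)) z ≠ 0 := P247.H558.VF.injOn_deriv_ne_zero a2
    (fun w hw => (a1 w hw).2.1.differentiableAt.differentiableWithinAt)
    (fun w hw w' hw' e => h2 (a1 w hw).2.2 (a1 w' hw').2.2 (by
      rw [← (a1 w hw).1, ← (a1 w' hw').1, show u (g w) = u (g w') from e])) a3
  have hs := hG.hasStrictDerivAt
  have hi := hG.analyticAt_localInverse hd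
  have e0 : hs.localInverse _ _ _ hd (u (g z)) = z :=
    (hs.hasStrictFDerivAt_equiv hd).eventually_left_inverse.self_of_nhds
  have k1 : Tendsto (hs.localInverse _ _ _ hd) (𝓝 (u (g z))) (𝓝 z) := by
    have := hi.continuousAt
    rwa [ContinuousAt, e0] at this
  refine ⟨fun q => hs.localInverse _ _ _ hd (u q), k1.comp (hm.cont_u hU), ?_, fun κ hκ =>
    hol_comp_u hm hU (ξ := fun w => κ (hs.localInverse _ _ _ hd w)) (hκ.comp_of_eq hi e0),
    u, hm.hol_u hU, hd⟩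
  filter_upwards [mem_nhdsWithin_of_mem_nhds (ev_back hm hU h3), self_mem_nhdsWithin,
    mem_nhdsWithin_of_mem_nhds ((hm.cont_u hU).eventually ((k1.eventually h5).and
      (hs.hasStrictFDerivAt_equiv hd).eventually_right_inverse))] with q c1 c2 c3
  rw [← c3.1, show u (g (hs.localInverse _ _ _ hd (u q))) = u q from c3.2,
    ← show C.π q = b from c2, c1]

theorem lim0 {F : ℂ → ℂ} {c : ℂ} (h1 : ∀ᶠ z in 𝓝[≠] 0, AnalyticAt ℂ F z)
    (h2 : Tendsto F (𝓝[≠] 0) (𝓝 c)) : Tendsto (fun z => z * deriv F z) (𝓝[≠] 0) (𝓝 0) := by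
  have e : ∀ z ≠ 0, Function.update F 0 c =ᶠ[𝓝 z] F := fun z hz =>
    (isOpen_ne.eventually_mem hz).mono fun w hw => Function.update_of_ne hw _ _
  have h3 : AnalyticAt ℂ (Function.update F 0 c) 0 :=
    Complex.analyticAt_of_differentiable_on_punctured_nhds_of_continuousAt (by
      filter_upwards [h1, self_mem_nhdsWithin] with z a a'
        using a.differentiableAt.congr_of_eventuallyEq (e z a')) (continuousAt_update_same.2 h2)
  have h4 := (continuousAt_id.mul h3.deriv.continuousAt).tendsto.mono_left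
    (nhdsWithin_le_nhds (s := {0}ᶜ))
  rw [Pi.mul_apply, id, zero_mul] at h4
  refine h4.congr' ?_
  filter_upwards [self_mem_nhdsWithin] with z a
  rw [Pi.mul_apply, id, (e z a).deriv_eq]

theorem limI {F : ℂ → ℂ} {c : ℂ} (h1 : ∀ᶠ z in 𝓝[≠] (0 : ℂ), AnalyticAt ℂ F z⁻¹)
    (h2 : Tendsto (fun z => F z⁻¹) (𝓝[≠] 0) (𝓝 c)) :
    Tendsto (fun z : ℂ => z⁻¹ * deriv F z⁻¹) (𝓝[≠] 0) (𝓝 0) := by
  have h3 := (lim0 (F := fun z => F z⁻¹) (by
    filter_upwards [h1, self_mem_nhdsWithin] with z a a' using a.comp (analyticAt_inv a')) h2).neg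
  rw [neg_zero] at h3
  refine h3.congr' ?_
  filter_upwards [h1, self_mem_nhdsWithin] with z a (a' : z ≠ 0)
  rw [show deriv (fun z => F z⁻¹) z = _ from
    (a.differentiableAt.hasDerivAt.comp z (hasDerivAt_inv a')).deriv]
  field_simp

theorem ends (hC : C.IsStable) (h1 : ∀ z ≠ 0, ContinuousAt g z) (hp : p ∉ g '' {0}ᶜ) {P : ℂ → Prop}
    (a0 : ∀ᶠ z in 𝓝[≠] 0, P z) (a1 : ∀ᶠ z in 𝓝[≠] 0, P z⁻¹) :
    ∀ᶠ q in 𝓝 p, ∀ z ≠ 0, g z = q → P z := by
  have := hC.2.1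
  obtain ⟨r, hr, h2⟩ := Metric.eventually_nhds_iff_ball.1
    (eventually_nhdsWithin_iff.1 (a0.and a1))
  have h3 : Metric.closedBall 0 r⁻¹ \ Metric.ball 0 r ⊆ ({0}ᶜ : Set ℂ) := fun z hz e =>
    hz.2 (by rw [show z = 0 from e]; exact Metric.mem_ball_self hr)
  have hK := (((isCompact_closedBall (0 : ℂ) r⁻¹).diff Metric.isOpen_ball).image_of_continuousOn
    fun z hz => (h1 z (h3 hz)).continuousWithinAt).isClosed
  filter_upwards [hK.isOpen_compl.mem_nhds fun h => hp (image_mono h3 h)] with q hq z hz e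
  by_cases h4 : z ∈ Metric.ball 0 r
  · exact (h2 z h4 hz).1
  · have h5 : r⁻¹ < ‖z‖ := not_le.1 fun h => hq ⟨z, ⟨mem_closedBall_zero_iff.2 h, h4⟩, e⟩
    have := (h2 z⁻¹ (by
      rw [mem_ball_zero_iff, norm_inv]
      exact inv_lt_of_inv_lt₀ hr h5) (inv_ne_zero hz)).2
    rwa [inv_inv] at this

/-- **FIELD** -/
theorem field (hC : C.IsStable) (hb : b ∈ C.B)
    (h1 : ∀ z ≠ 0, HolF C b g z ∧ Sm C (g z) ∧ ∀ i, g z ≠ C.s i b) (h2 : InjOn g {0}ᶜ)
    {q₀ q₁ : C.X} (t0 : Tendsto g (𝓝[≠] 0) (𝓝 q₀))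
    (t1 : Tendsto (fun z => g z⁻¹) (𝓝[≠] 0) (𝓝 q₁)) : False := by
  classical
  have := hC.2.1
  let D : (C.X → ℂ) → C.X → ℂ := fun f p => if p ∈ g '' {0}ᶜ then
    Function.invFunOn g {0}ᶜ p * deriv (fun w => f (g w)) (Function.invFunOn g {0}ᶜ p) else 0
  have d1 : ∀ f, ∀ z ≠ 0, D f (g z) = z * deriv (fun w => f (g w)) z := fun f z hz => by
    simp only [D]
    rw [if_pos ⟨z, hz, rfl⟩, h2.leftInvOn_invFunOn hz]
  have d2 : ∀ f, ∀ p ∉ g '' {0}ᶜ, D f p = 0 := fun f p hp => if_neg hp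
  have li := fun z hz => loc_inv (h1 z hz).1 (isOpen_ne.mem_nhds hz) h2 (h1 z hz).2.1
  have d3 : ∀ f, ∀ z ≠ 0, C.hol f (g z) → FH C b (D f) (g z) := fun f z hz hf => by
    obtain ⟨ξ, a1, a2, a3, -⟩ := li z hz
    refine ⟨_, a3 _ (analyticAt_id.mul ((h1 z hz).1.an f hf).deriv), ?_⟩
    filter_upwards [a2, mem_nhdsWithin_of_mem_nhds (a1.eventually (isOpen_ne.mem_nhds hz))]
      with q c1 c2
    exact (congrArg (D f) c1.symm).trans (d1 f _ c2)
  have hc := fun z hz => (h1 z hz).1.cont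
  have sp : ∀ {k : ℂ → C.X} {q p : C.X}, Tendsto k (𝓝[≠] 0) (𝓝 q) → p ≠ q →
      ∃ N ∈ 𝓝 p, ∀ᶠ z in 𝓝[≠] 0, k z ∉ N := fun hk e =>
    let ⟨N, N', a, a', c, c', d⟩ := t2_separation e
    ⟨N, a.mem_nhds c, (hk.eventually (a'.mem_nhds c')).mono fun _ h h' => d.le_bot ⟨h', h⟩⟩
  have d4 : ∀ f, ∀ p ∉ g '' {0}ᶜ, p ≠ q₀ → p ≠ q₁ → FH C b (D f) p := fun f p hp e0 e1 => by
    obtain ⟨N, a1, a2⟩ := sp t0 e0
    obtain ⟨N', a3, a4⟩ := sp t1 e1
    obtain ⟨U, u, v, t, hU, hm⟩ := exists_mod hC p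
    refine ⟨fun _ => 0, (hm.hol p hU _).2 ⟨fun _ => 0, analyticAt_const, .rfl⟩,
      mem_nhdsWithin_of_mem_nhds ?_⟩
    filter_upwards [a1, a3, ends hC hc hp (P := fun z => g z ∉ N ∩ N')
      (a2.mono fun _ h h' => h h'.1) (a4.mono fun _ h h' => h h'.2)] with q c1 c2 c3
    exact d2 f q fun ⟨z, hz, e⟩ => c3 z hz e (e ▸ ⟨c1, c2⟩)
  have d5 : ∀ f, ∀ p ∉ g '' {0}ᶜ, C.hol f p → ContinuousAt (D f) p := fun f p hp hf => by
    obtain ⟨f1, f2⟩ := hol_ev hC hf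
    rw [ContinuousAt, d2 f p hp]
    intro S hS
    have k0 : ∃ N ∈ 𝓝 p, ∀ᶠ z in 𝓝[≠] 0, g z ∈ N → z * deriv (fun w => f (g w)) z ∈ S := by
      by_cases e : p = q₀
      · subst e
        refine ⟨univ, univ_mem, ((lim0 (F := fun w => f (g w)) ?_
          (f1.tendsto.comp t0)).eventually_mem hS).mono fun _ h _ => h⟩
        filter_upwards [t0.eventually f2, self_mem_nhdsWithin] with z a a' using (h1 z a').1.an f a
      · exact let ⟨N, a, a'⟩ := sp t0 e; ⟨N, a, a'.mono fun _ h h' => (h h').elim⟩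
    have k1 : ∃ N ∈ 𝓝 p, ∀ᶠ z in 𝓝[≠] (0 : ℂ), g z⁻¹ ∈ N →
        z⁻¹ * deriv (fun w => f (g w)) z⁻¹ ∈ S := by
      by_cases e : p = q₁
      · subst e
        refine ⟨univ, univ_mem, ((limI (F := fun w => f (g w)) ?_
          (f1.tendsto.comp t1)).eventually_mem hS).mono fun _ h _ => h⟩
        filter_upwards [t1.eventually f2, self_mem_nhdsWithin] with z a a'
          using (h1 _ (inv_ne_zero a')).1.an f a
      · exact let ⟨N, a, a'⟩ := sp t1 e; ⟨N, a, a'.mono fun _ h h' => (h h').elim⟩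
    obtain ⟨N, a1, a2⟩ := k0
    obtain ⟨N', a3, a4⟩ := k1
    refine mem_map.2 ?_
    filter_upwards [a1, a3, ends hC hc hp
      (P := fun z => g z ∈ N ∩ N' → z * deriv (fun w => f (g w)) z ∈ S)
      (a2.mono fun _ h h' => h h'.1) (a4.mono fun _ h h' => h h'.2)] with q c1 c2 c3
    by_cases e : q ∈ g '' {0}ᶜ
    · obtain ⟨z, hz, rfl⟩ := e
      rw [mem_preimage, d1 f z hz]
      exact c3 z hz rfl ⟨c1, c2⟩
    · rw [mem_preimage, d2 f q e]
      exact mem_of_mem_nhds hS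
  obtain ⟨-, -, -, -, u, u1, u2⟩ := li 1 one_ne_zero
  refine u2 ?_
  rw [← one_mul (deriv _ _), ← d1 u 1 one_ne_zero]
  refine (hC.2.2.2.2.2 b hb).2.2 D ⟨fun p hp f f' hf hf' => ?_, fun p _ c => ?_, fun i f _ =>
    d2 f _ fun ⟨z, hz, e⟩ => (h1 z hz).2.2 i e⟩ _ (h1 1 one_ne_zero).1.mem u u1
  · by_cases e : p ∈ g '' {0}ᶜ
    · obtain ⟨z, hz, rfl⟩ := e
      have a := ((h1 z hz).1.an f hf).differentiableAt
      have a' := ((h1 z hz).1.an f' hf').differentiableAt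
      simp only [d1 _ z hz, Pi.add_apply, Pi.mul_apply]
      refine ⟨?_, ?_, fun e => ?_, d3 f z hz hf⟩
      · rw [deriv_fun_add a a', mul_add]
      · rw [deriv_fun_mul a a']
        ring
      · rw [EventuallyEq.deriv_eq (f₁ := fun w => f (g w)) (f := fun w => f' (g w))
          ((h1 z hz).1.tendsto.eventually e)]
    · simp only [d2 _ p e, add_zero, mul_zero, implies_true, true_and]
      refine fh_removable hC hp (d5 f p e hf).continuousWithinAt (mem_nhdsWithin_of_mem_nhds ?_)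
      have k : ∀ q : C.X, ∀ᶠ x in 𝓝 p, x ≠ p → x ≠ q := fun q => by
        by_cases e : p = q
        · exact .of_forall fun _ h => e ▸ h
        · exact (isOpen_ne.eventually_mem e).mono fun _ h _ => h
      filter_upwards [(hol_ev hC hf).2, k q₀, k q₁] with q c1 c2 c3 c4
      by_cases e : q ∈ g '' {0}ᶜ
      · obtain ⟨z, hz, rfl⟩ := e
        exact d3 f z hz c1
      · exact d4 f q e (c2 c4) (c3 c4)
  · simp [D]

end Vale.Agent.P273SE

end
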