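import Vale.Agent.P273SE.Field
import Vale.Agent.P273SD.Zal

/-!
An injective holomorphic map of a punctured disc to a fibre has a limit at the puncture; a stable
curve does not contain a punctured plane without special points.
-/

noncomputable section

namespace Vale.Agent.P273SE

open Set Filter Topology Metric Vale.Agent.P273.H183 Vale.Agent.P273.H948 Vale.Agent.P273SD

variable {L ι : Type} {m : ℕ} {C : Fam L m} {b : Fin m → ℂ} {h : ℂ → C.X} {𝒰 : Ultrafilter ι}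

/-- `h` is holomorphic near the puncture and takes no value infinitely often. -/
structure Pun (C : Fam L m) (b : Fin m → ℂ) (h : ℂ → C.X) : Prop where
  hol : ∀ᶠ z in 𝓝[≠] 0, HolF C b h z ∧ Sm C (h z)
  ne : ∀ q, ∀ᶠ z in 𝓝[≠] 0, h z ≠ q

theorem Pun.const [Nonempty C.X] (hC : C.IsStable) (H : Pun C b h) {α : ι → ℂ → ℂ} {Ω : Set ℂ}
    (hΩ : IsPreconnected Ω) (ha : ∀ j z, AnalyticAt ℂ (α j) z)
    (ht : ∀ z ∈ Ω, Tendsto (fun x : ι × ℂ => α x.1 x.2) ((𝒰 : Filter ι) ×ˢ 𝓝 z) (𝓝[≠] 0))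
    (hn : ∀ z ∈ Ω, Nrm C 𝒰 (fun j w => h (α j w)) z) {z z' : ℂ} (hz : z ∈ Ω) (hz' : z' ∈ Ω) :
    lm C 𝒰 (fun j w => h (α j w)) z' = lm C 𝒰 (fun j w => h (α j w)) z := by
  have hb : Tendsto (fun _ : ι => b) 𝒰 (𝓝 b) := tendsto_const_nhds
  have h1 : ∀ z ∈ Ω, EH C 𝒰 (fun _ => b) (fun j w => h (α j w)) z := fun z hz =>
    ((ht z hz).eventually H.hol).mono fun x hx => hx.1.comp (ha _ _)
  have h2 := (hn z hz).cc hC
  refine const_of_ev hC hΩ (fun w hw => holF_lim hC hb (h1 w hw) ((hn w hw).cc hC)) hz ?_ z' hz'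
  by_cases hs : Sm C (lm C 𝒰 (fun j w => h (α j w)) z)
  · exact hur_sm hC hb (h1 z hz) h2 hs tendsto_const_nhds
      (.of_forall fun _ => (holF_lim hC hb (h1 z hz) h2).mem) ((ht z hz).eventually (H.ne _))
  · exact hur_node hC hb (h1 z hz) h2 hs (((ht z hz).eventually H.hol).mono fun x hx => hx.2)

/-- The images of small circles are small. -/
theorem Pun.circ (hC : C.IsStable) (hb : b ∈ C.B) (H : Pun C b h) {a : ι → ℂ}
    (ha : Tendsto a 𝒰 (𝓝[≠] 0)) :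
    ∃ q ∈ C.fib b, ∀ N ∈ 𝓝 q, ∀ᶠ j in (𝒰 : Filter ι), ∀ z, ‖z‖ = ‖a j‖ → h z ∈ N := by
  have : Nonempty C.X := ⟨h 0⟩
  obtain ⟨a1, a2⟩ := tendsto_nhdsWithin_iff.1 ha
  have h0 : ∀ {F : Filter (ι × ℂ)} {β : ι × ℂ → ℂ} {z : ℂ}, z ≠ 0 → Tendsto Prod.fst F 𝒰 →
      Tendsto β F (𝓝 z) → Tendsto (fun x => a x.1 * β x) F (𝓝[≠] 0) := fun hz k1 k2 =>
    tendsto_nhdsWithin_iff.2 ⟨by simpa using (a1.comp k1).mul k2,
      ((k1.eventually a2).and (k2.eventually (isOpen_ne.mem_nhds hz))).mono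
        fun _ c => mul_ne_zero c.1 c.2⟩
  have h1 : ∀ z ≠ 0, EH C 𝒰 (fun _ => b) (fun j w => h (a j * w)) z := fun z hz =>
    ((h0 hz tendsto_fst tendsto_snd).eventually H.hol).mono fun x hx =>
      HolF.comp (k := fun w => a x.1 * w) hx.1 (by fun_prop)
  have h2 : ∀ z ∈ ({0}ᶜ : Set ℂ), Nrm C 𝒰 (fun j w => h (a j * w)) z := fun z hz => by
    by_contra hn
    obtain ⟨w, ρ, k1, k2, -, k3, ζ, k4⟩ := zalcman hC hb tendsto_const_nhds (h1 z hz) hn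
    refine k4 (H.const hC (α := fun j ζ => a j * (w j + ρ j * ζ)) isPreconnected_univ
      (fun _ _ => by fun_prop) (fun y _ => h0 hz tendsto_fst ?_) (fun y _ => k3 y) trivial trivial)
    simpa using (k1.comp tendsto_fst).add
      ((((Complex.continuous_ofReal.tendsto 0).comp k2).comp tendsto_fst).mul tendsto_snd)
  have h3 := fun z hz => H.const hC (α := fun j ζ => a j * ζ) (z := 1) (z' := z)
    (isConnected_compl_singleton_of_one_lt_rank (by simp) (0 : ℂ)).isPreconnected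
    (fun _ _ => by fun_prop) (fun y hy => h0 hy tendsto_fst tendsto_snd) h2 one_ne_zero hz
  refine ⟨_, ((h2 1 one_ne_zero).cc hC).self_of_nhds.fib hC tendsto_const_nhds (h1 1 one_ne_zero),
    fun N hN => ?_⟩
  filter_upwards [a2, ev_compact (isCompact_sphere (0 : ℂ) 1) (P := fun j w => h (a j * w) ∈ N)
    fun z hz => ((h2 z (ne_of_mem_sphere hz one_ne_zero)).cc hC).self_of_nhds
      (by rwa [h3 z (ne_of_mem_sphere hz one_ne_zero)])] with j (c1 : a j ≠ 0) c2 z hz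
  have := c2 (z / a j) (by
    rw [mem_sphere_zero_iff_norm, norm_div, hz, div_self (norm_ne_zero_iff.2 c1)])
  rwa [mul_div_cancel₀ _ c1] at this

theorem closure_ann {r R : ℝ} (hr : 0 < r) (hR : r < R) :
    closure (ball (0 : ℂ) R \ closedBall 0 r) = closedBall 0 R \ ball 0 r := by
  refine (closure_minimal (sdiff_subset_sdiff ball_subset_closedBall ball_subset_closedBall)
    (isClosed_closedBall.sdiff isOpen_ball)).antisymm fun z hz => ?_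
  by_cases h : z ∈ closedBall 0 r
  · refine isOpen_ball.inter_closure (t := (closedBall 0 r)ᶜ) ⟨closedBall_subset_ball hR h, ?_⟩
    rw [closure_compl, interior_closedBall _ hr.ne']
    exact hz.2
  · refine isClosed_closedBall.isOpen_compl.closure_inter ⟨?_, h⟩
    rw [closure_ball _ (hr.trans hR).ne']
    exact hz.1

/-- The nearest bad circles. -/
theorem sel {S : Set ℂ} {r₀ : ℝ} (h0 : 0 < r₀)
    (hS : ∀ r R, 0 < r → R < r₀ → IsCompact (S ∩ (closedBall 0 R \ ball 0 r)))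
    (hf : ∃ᶠ z in 𝓝[≠] 0, z ∈ S) : ∃ x y : ℂ → ℂ, Tendsto x (𝓝[≠] 0) (𝓝[≠] 0) ∧
      Tendsto y (𝓝[≠] 0) (𝓝[≠] 0) ∧ ∀ᶠ a in 𝓝[≠] 0, x a ∈ S ∧ y a ∈ S ∧ ‖x a‖ ≤ ‖a‖ ∧
        ‖a‖ ≤ ‖y a‖ ∧ ∀ z ∈ S, ‖z‖ ≤ ‖x a‖ ∨ ‖y a‖ ≤ ‖z‖ := by
  have h1 : ∀ ε > 0, ∃ z ∈ S, z ≠ 0 ∧ ‖z‖ < ε := fun ε hε =>
    let ⟨z, a, c⟩ := (hf.and_eventually (eventually_mem_nhdsWithin.and
      (mem_nhdsWithin_of_mem_nhds (ball_mem_nhds 0 hε)))).exists
    ⟨z, a, c.1, mem_ball_zero_iff.1 c.2⟩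
  have h2 : ∀ z : ℂ, z ≠ 0 → ∀ᶠ a in 𝓝[≠] (0 : ℂ), a ≠ 0 ∧ ‖a‖ ≤ ‖z‖ := fun z hz =>
    eventually_mem_nhdsWithin.and (mem_nhdsWithin_of_mem_nhds
      (mem_of_superset (closedBall_mem_nhds 0 (norm_pos_iff.2 hz))
        fun _ => mem_closedBall_zero_iff.1))
  obtain ⟨z₀, a1, a2, a3⟩ := h1 r₀ h0
  have h3 : ∀ᶠ a in 𝓝[≠] (0 : ℂ), ∃ p : ℂ × ℂ, p.1 ≠ 0 ∧ p.2 ≠ 0 ∧ p.1 ∈ S ∧ p.2 ∈ S ∧
      ‖p.1‖ ≤ ‖a‖ ∧ ‖a‖ ≤ ‖p.2‖ ∧ ∀ z ∈ S, (‖z‖ ≤ ‖a‖ → ‖z‖ ≤ ‖p.1‖) ∧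
        (‖a‖ ≤ ‖z‖ → ‖p.2‖ ≤ ‖z‖) := by
    filter_upwards [h2 z₀ a2] with a ⟨c1, c2⟩
    obtain ⟨z₁, d1, d2, d3⟩ := h1 _ (norm_pos_iff.2 c1)
    obtain ⟨x, hx, ex⟩ := (hS ‖z₁‖ ‖a‖ (norm_pos_iff.2 d2) (c2.trans_lt a3)).exists_isMaxOn
      ⟨z₁, d1, by simpa using d3.le⟩ continuous_norm.continuousOn
    obtain ⟨y, hy, ey⟩ := (hS ‖a‖ ‖z₀‖ (norm_pos_iff.2 c1) a3).exists_isMinOn
      ⟨z₀, a1, by simpa using c2⟩ continuous_norm.continuousOn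
    simp only [mem_inter_iff, Set.mem_sdiff, mem_closedBall_zero_iff, mem_ball_zero_iff, not_lt,
      isMaxOn_iff, isMinOn_iff] at hx hy ex ey
    exact ⟨(x, y), norm_pos_iff.1 ((norm_pos_iff.2 d2).trans_le hx.2.2),
      norm_pos_iff.1 ((norm_pos_iff.2 c1).trans_le hy.2.2), hx.1, hy.1, hx.2.1, hy.2.2,
      fun z hz => ⟨fun e => (le_total ‖z‖ ‖z₁‖).elim (·.trans hx.2.2) fun e' => ex z ⟨hz, e, e'⟩,
        fun e => (le_total ‖z‖ ‖z₀‖).elim (fun e' => ey z ⟨hz, e', e⟩) hy.2.1.trans⟩⟩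
  obtain ⟨p, hp⟩ := h3.choice
  have h4 : Tendsto (fun a => (p a).2) (𝓝[≠] 0) (𝓝 0) := by
    refine Metric.tendsto_nhds.2 fun ε hε => ?_
    obtain ⟨z, c1, c2, c3⟩ := h1 ε hε
    filter_upwards [hp, h2 z c2] with a c4 c5
    rw [dist_zero_right]
    exact ((c4.2.2.2.2.2.2 z c1).2 c5.2).trans_lt c3
  exact ⟨fun a => (p a).1, fun a => (p a).2, tendsto_nhdsWithin_iff.2 ⟨squeeze_zero_norm'
    (hp.mono fun _ c => c.2.2.2.2.1.trans c.2.2.2.2.2.1) (by simpa using h4.norm),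
      hp.mono fun _ c => c.1⟩, tendsto_nhdsWithin_iff.2 ⟨h4, hp.mono fun _ c => c.2.1⟩,
    hp.mono fun a c => ⟨c.2.2.1, c.2.2.2.1, c.2.2.2.2.1, c.2.2.2.2.2.1, fun z hz =>
      (le_total ‖z‖ ‖a‖).imp (c.2.2.2.2.2.2 z hz).1 (c.2.2.2.2.2.2 z hz).2⟩⟩

/-- **EXT** -/
theorem Pun.lim (hC : C.IsStable) (hb : b ∈ C.B) (H : Pun C b h) :
    ∃ q ∈ C.fib b, Tendsto h (𝓝[≠] 0) (𝓝 q) := by
  have := hC.2.1
  have := wlc hC
  have hV : (Ultrafilter.of (𝓝[≠] (0 : ℂ)) : Filter ℂ) ≤ 𝓝[≠] 0 := Ultrafilter.of_le _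
  obtain ⟨q, hq, h1⟩ := H.circ hC hb (a := id) hV
  refine ⟨q, hq, by_contra fun hn => ?_⟩
  obtain ⟨U, u, v, t, hU, hm⟩ := exists_mod hC q
  obtain ⟨N₀, n1, n2⟩ := not_tendsto_iff_exists_frequently_notMem.1 hn
  obtain ⟨K, k1, k2, k3⟩ := local_compact_nhds (inter_mem n1 (hm.isOpen.mem_nhds hU))
  have k4 := interior_mem_nhds.2 k1
  obtain ⟨r₀, h0, h2⟩ := Metric.eventually_nhds_iff_ball.1 (eventually_nhdsWithin_iff.1 H.hol)
  have h3 : ∀ {r R}, 0 < r → R < r₀ → ∀ z ∈ closedBall (0 : ℂ) R \ ball 0 r, HolF C b h z :=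
    fun hr hR z hz => (h2 z (closedBall_subset_ball hR hz.1) fun e =>
      hz.2 (by rw [show z = 0 from e]; exact mem_ball_self hr)).1
  obtain ⟨x, y, tx, ty, h4⟩ := sel (S := h ⁻¹' (interior K)ᶜ) h0 (fun r R hr hR =>
    ((isCompact_closedBall 0 R).diff isOpen_ball).of_isClosed_subset (inter_comm _ _ ▸
      ContinuousOn.preimage_isClosed_of_isClosed
        (fun z hz => (h3 hr hR z hz).cont.continuousWithinAt)
        (isClosed_closedBall.sdiff isOpen_ball) isOpen_interior.isClosed_compl) inter_subset_right)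
    (n2.mono fun z c c' => c (k2 (interior_subset c')).1)
  have h5 : ∀ᶠ a in (Ultrafilter.of (𝓝[≠] (0 : ℂ)) : Filter ℂ), 0 < ‖x a‖ ∧ ‖x a‖ < ‖a‖ ∧
      ‖a‖ < ‖y a‖ ∧ ∀ z ∈ closedBall (0 : ℂ) ‖y a‖ \ ball 0 ‖x a‖, HolF C b h z ∧ h z ∈ K := by
    filter_upwards [hV h4, h1 _ k4, hV (tx.eventually self_mem_nhdsWithin),
      hV (ty.eventually (mem_nhdsWithin_of_mem_nhds (ball_mem_nhds 0 h0)))] with a c d e f
    have e1 := norm_pos_iff.2 e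
    have e2 := c.2.2.1.lt_of_ne fun k => c.1 (d _ k)
    have e3 := c.2.2.2.1.lt_of_ne fun k => c.2.1 (d _ k.symm)
    refine ⟨e1, e2, e3, fun z hz => ?_⟩
    have e4 := h3 e1 (mem_ball_zero_iff.1 f) z hz
    rw [← closure_ann e1 (e2.trans e3)] at hz
    refine ⟨e4, k3.isClosed.closure_subset (e4.cont.continuousWithinAt.mem_closure hz
      fun w hw => interior_subset (by_contra fun k => ?_))⟩
    exact (c.2.2.2.2 w k).elim (fun k => hw.2 (mem_closedBall_zero_iff.2 k))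
      fun k => (mem_ball_zero_iff.1 hw.1).not_ge k
  have h6 : ∀ s : ℂ → ℂ, Tendsto s (𝓝[≠] 0) (𝓝[≠] 0) →
      (∀ᶠ a in (Ultrafilter.of (𝓝[≠] (0 : ℂ)) : Filter ℂ), h (s a) ∈ K \ interior K) →
      ∃ (w w' : C.X → ℂ) (c : ℂ), Mod C U w w' t ∧ w q ≠ c ∧ ∀ ε > 0,
        ∀ᶠ a in (Ultrafilter.of (𝓝[≠] (0 : ℂ)) : Filter ℂ), ∀ z, ‖z‖ = ‖s a‖ →
          ‖w (h z) - c‖ < ε := fun s ts hs => by
    obtain ⟨p, p1, p2⟩ := H.circ hC hb (ts.mono_left hV)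
    have p3 : p ∈ K \ interior K := (k3.isClosed.sdiff isOpen_interior).mem_of_tendsto
      (fun N hN => (p2 N hN).mono fun a c => c _ rfl) hs
    have p4 := (k2 p3.1).2
    have p5 : ∀ {w w'}, Mod C U w w' t → ∀ ε > 0,
        ∀ᶠ a in (Ultrafilter.of (𝓝[≠] (0 : ℂ)) : Filter ℂ), ∀ z, ‖z‖ = ‖s a‖ →
          ‖w (h z) - w p‖ < ε := fun M ε hε =>
      (p2 _ (M.cont_u p4 (ball_mem_nhds _ hε))).mono fun a c z e => mem_ball_iff_norm.1 (c z e)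
    by_cases e : u q = u p
    · refine ⟨v, u, v p, hm.swap, fun e' => p3.2 ?_, p5 hm.swap⟩
      rw [← hm.inj hU p4 (by simp only [Emap, e, e', show C.π q = C.π p from hq.trans p1.symm])]
      exact mem_of_mem_nhds k4
    · exact ⟨u, v, u p, hm, e, p5 hm⟩
  obtain ⟨w₁, _, c₁, m1, e1, f1⟩ := h6 x tx (((h4.filter_mono hV).and h5).mono fun a c =>
    ⟨(c.2.2.2.2 _ (by simpa using (c.2.2.1.trans c.2.2.2.1).le)).2, c.1.1⟩)
  obtain ⟨w₂, _, c₂, m2, e2, f2⟩ := h6 y ty (((h4.filter_mono hV).and h5).mono fun a c =>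
    ⟨(c.2.2.2.2 _ (by simpa using (c.2.2.1.trans c.2.2.2.1).le)).2, c.1.2.1⟩)
  obtain ⟨M, hM⟩ := k3.exists_bound_of_continuousOn (f := fun p => (w₁ p - c₁, w₂ p - c₂))
    fun p hp => (((m1.cont_u (k2 hp).2).sub continuousAt_const).prodMk
      ((m2.cont_u (k2 hp).2).sub continuousAt_const)).continuousWithinAt
  have g1 : ContinuousAt (fun p => ‖(w₁ p - c₁) * (w₂ p - c₂)‖) q :=
    (((m1.cont_u hU).sub continuousAt_const).mul ((m2.cont_u hU).sub continuousAt_const)).norm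
  have g2 : 0 < ‖(w₁ q - c₁) * (w₂ q - c₂)‖ :=
    norm_pos_iff.2 (mul_ne_zero (sub_ne_zero.2 e1) (sub_ne_zero.2 e2))
  obtain ⟨ε, hε, g3⟩ := exists_pos_mul_lt g2 M
  obtain ⟨a, c, d, d1, d2⟩ := (h5.and ((h1 _ (g1 (lt_mem_nhds g3))).and
    ((f1 ε hε).and (f2 ε hε)))).exists
  have g4 := closure_ann c.1 (c.2.1.trans c.2.2.1)
  refine (d a rfl).not_ge (Complex.norm_le_of_forall_mem_frontier_norm_le
    (f := fun z => (w₁ (h z) - c₁) * (w₂ (h z) - c₂)) (isBounded_ball.subset sdiff_subset)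
    (DifferentiableOn.diffContOnCl fun z hz => ?_) (fun z hz => ?_) (subset_closure
      ⟨mem_ball_zero_iff.2 c.2.2.1, fun k => c.2.1.not_ge (mem_closedBall_zero_iff.1 k)⟩))
  · obtain ⟨i1, i2⟩ := c.2.2.2 z (g4 ▸ hz)
    exact (((i1.an_u m1 (k2 i2).2).sub analyticAt_const).mul
      ((i1.an_u m2 (k2 i2).2).sub analyticAt_const)).differentiableAt.differentiableWithinAt
  · rw [frontier, g4, (isOpen_ball.sdiff isClosed_closedBall).interior_eq] at hz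
    have i1 := norm_prod_le_iff.1 (hM _ (c.2.2.2 z hz.1).2)
    rw [norm_mul]
    by_cases e : ‖z‖ = ‖x a‖
    · rw [mul_comm]
      exact mul_le_mul i1.2 (d1 z e).le (norm_nonneg _) ((norm_nonneg _).trans i1.2)
    · refine mul_le_mul i1.1 (d2 z ?_).le (norm_nonneg _) ((norm_nonneg _).trans i1.1)
      simp only [Set.mem_sdiff, mem_closedBall_zero_iff, mem_ball_zero_iff, not_lt, not_and,
        not_not] at hz
      exact hz.1.1.eq_of_not_lt fun k => e ((hz.2 k).antisymm hz.1.2)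

theorem pun_of {O : Set ℂ} (hO : O ∈ 𝓝[≠] (0 : ℂ)) (h1 : ∀ z ∈ O, HolF C b h z ∧ Sm C (h z))
    (h2 : InjOn h O) : Pun C b h := by
  refine ⟨mem_of_superset hO h1, fun q => ?_⟩
  by_cases e : ∃ z ∈ O, z ≠ 0 ∧ h z = q
  · obtain ⟨z, a, c, rfl⟩ := e
    filter_upwards [hO, mem_nhdsWithin_of_mem_nhds (isOpen_ne.mem_nhds c.symm)] with w d d' e
      using d' (h2 d a e)
  · filter_upwards [hO, self_mem_nhdsWithin] with w d d' e' using e ⟨w, d, d', e'⟩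

/-- **NOENT** -/
theorem noent (hC : C.IsStable) (hb : b ∈ C.B) {g : ℂ → C.X}
    (h1 : ∀ z ≠ 0, HolF C b g z ∧ Sm C (g z) ∧ ∀ i, g z ≠ C.s i b) (h2 : InjOn g {0}ᶜ) : False :=
  let ⟨_, _, t0⟩ := (pun_of self_mem_nhdsWithin (fun z hz => ⟨(h1 z hz).1, (h1 z hz).2.1⟩)
    h2).lim hC hb
  let ⟨_, _, t1⟩ := (pun_of (h := fun z => g z⁻¹) self_mem_nhdsWithin (fun _ hz =>
    ⟨(h1 _ (inv_ne_zero hz)).1.comp (analyticAt_inv hz), (h1 _ (inv_ne_zero hz)).2.1⟩)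
    fun _ hz _ hw e => inv_injective (h2 (inv_ne_zero hz) (inv_ne_zero hw) e)).lim hC hb
  field hC hb h1 h2 t0 t1

end Vale.Agent.P273SE

end
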